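import Crest.Agent.X212.St29.Lf
import Crest.Agent.X212.St29.Start
import Crest.Agent.X212.Hel40.Bas
import Crest.Agent.X212.Prf6.All
import Crest.Agent.X212.St29.Defs
import Crest.Agent.X212.Sm25.Disc
import Crest.Agent.X212.Grm47.Germ
import Crest.Agent.X212.Grm47.Disc

-- ▼ part X212/St29/Dt
section

/-!
# X212 / St29 (helper29): the data of stage `-1` from the triangulation
-/

set_option autoImplicit false
set_option linter.unusedSectionVars false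

open Set Filter Topology Function Classical
open scoped ContDiff Manifold NNReal Real
open Crest.GeometryTopology.DehnSurgery Crest.Agent.X212.Glue52 Crest.Agent.X212.Ext52
open Crest.Agent.X212.Sm10 Crest.Agent.X212.Hp13 Crest.Agent.X212.Mol27 Crest.Agent.X212.Alg36
open Crest.Agent.X212.Hel40 (dl dl_congr dl_exp contMDiffAt_log)
open Crest.Agent.X212.Ind26 (Coh Adm)

noncomputable section

namespace Crest.Agent.X212.St29

variable {k : KD} {η : ℝ≥0} {s : St} (g : Geo k η s) (h : Sm k η) {p : E3} {x b b' : s.P}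
  {δ a c : ℝ} {W : Set E3} {w : s.P → s.P → ℤ}

theorem near_v (hp : p ∈ g.R.B) (hx : g.R.lam x p ≠ 0) :
    |rho k.toTube p - rho k.toTube (g.R.x x)| ≤ η :=
  (g.mesh _ (Real.wt_mem hp).chain p (Real.mem_spx_support hp) _ (g.R.x_mem_spx.2 hx)).2

include h in
theorem rho_of_A (hp : p ∈ g.R.B) (hx : g.R.lam x p ≠ 0) (hA : x ∈ s.A) : 1 / 2 < rho k.toTube p := by
  linarith [abs_le.1 (near_v g hp hx), abs_le.1 (rho_near g h (g.R.x_mem x)), (g.mem_A x).1 hA,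
    g.r0_mem.1, eta_le h]

include h in
theorem near_mol (M : Mol (bary g.R) W δ) (hδ : 0 < δ) (hs : Fintype.card s.P * δ ≤ 1 / 100)
    (hp : p ∈ W) (hB : p ∈ g.R.B) (hx : M.Λ p x ≠ 0) : |rho k.toTube p - g.ρ (g.R.x x)| ≤ 3 / 16 := by
  obtain ⟨σ, h1, h2, h3⟩ := M.supp p hp x hx
  obtain ⟨t, -, ht⟩ := exists_gt (S := univ) (μ := g.R.wt p) hδ.le (by
    have := wS_compl (∅ : Set s.P) (g.R.wt p)
    rw [compl_empty, (Real.wt_mem hB).sum, wS_zero (S := ∅) fun _ h => h.elim] at this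
    linarith)
  have e1 := abs_le.1 (near_v g hB (hδ.trans ht).ne')
  have e2 := abs_le.1 (g.mesh _ h1 _ (g.R.x_mem_spx.2 (h3 t ht.le)) _ (g.R.x_mem_spx.2 h2)).2
  have e3 := abs_le.1 (rho_near g h (g.R.x_mem x))
  rw [abs_le]
  constructor <;> linarith [eta_le h]

/-- the lift of the PL angle near the vertex `b` -/
def GG (b : s.P) (p : E3) : ℝ := g.R.pl (fun x => g.c + g.a x + Cut21.pot g.z b x) p

theorem GG_eq [Nonempty s.P] (hp : p ∈ g.R.spx g.W) (hb : g.R.lam b p ≠ 0) : GG g b p =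
    g.R.pl (fun x => g.c + g.a x - g.z x (sup g.R p).top) p + g.z b (sup g.R p).top := by
  have m := (mem_spx.1 hp).2
  have mb := (mem_sup hp.1).2 hb
  have mT := m _ (Ch.top_mem _)
  have : GG g b p = g.R.pl ((fun x => g.c + g.a x - g.z x (sup g.R p).top) +
      fun _ => (g.z b (sup g.R p).top : ℝ)) p := Real.pl_congr fun x hx => by
    have mx := (mem_sup hp.1).2 hx
    rw [Pi.add_apply, Cut21.pot]
    split_ifs with l
    · rw [g.coc b (m b mb) x (m x mx) _ mT l (Ch.le_top mx)]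
      push_cast; ring
    · rw [g.coc x (m x mx) b (m b mb) _ mT ((Ch.total _ mb mx).resolve_left l) (Ch.le_top mb)]
      push_cast; ring
  rw [this, Real.pl, cmb_add, cmb_const, (Real.wt_mem hp.1).sum, one_smul, Real.pl]

theorem ex_GG (hp : p ∈ g.R.spx g.W) (hb : g.R.lam b p ≠ 0) : ex (GG g b p) = Th g p := by
  have := ne_P g
  rw [GG_eq g hp hb, ex_add_int]
  exact (g.cir p hp _ ((mem_spx.1 hp).2 _ (Ch.top_mem _))
    fun x hx => Ch.le_top ((mem_sup hp.1).2 hx)).symm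

theorem GG_change (hp : p ∈ g.R.spx g.W) (hb : g.R.lam b p ≠ 0) (hb' : g.R.lam b' p ≠ 0)
    (l : b ≤ b') : GG g b p = GG g b' p + g.z b b' := by
  have := ne_P g
  have m := (mem_spx.1 hp).2
  have mb' := (mem_sup hp.1).2 hb'
  rw [GG_eq g hp hb, GG_eq g hp hb', g.coc b (m b ((mem_sup hp.1).2 hb)) b' (m _ mb') _
    (m _ (Ch.top_mem _)) l (Ch.le_top mb')]
  push_cast; ring

theorem continuousAt_δ (hp : 1 / 4 < rho k.toTube p) : ContinuousAt g.δ p := by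
  obtain ⟨r, r0, hr⟩ := Metric.isOpen_iff.1 (isOpen_Ioi.preimage (continuous_rho k.toTube)) p hp
  exact (g.δ_lip _ (convex_ball p r) (hr.trans fun q h => le_of_lt (show 1 / 4 < rho k.toTube q from h))).continuousOn.continuousAt
    (Metric.ball_mem_nhds p r0)

/-- the cutting function is homotopic to the angle -/
theorem exists_psi (L : LC E3 s.A δ) (hl : L.lam = g.R.wt)
    (hU : ∀ y ∈ L.U, 1 / 2 < rho k.toTube y) (hk : Coh s.A g.z w) (hz : Zc s.A w) (hc : c < 1 / 2) :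
    ∃ ψ : E3 → ℝ, ContDiffOn ℝ ∞ ψ (L.O c) ∧ ∀ y ∈ L.O c, An k ψ y = L.phi w c y := by
  obtain ⟨u, hu⟩ := hk
  let f : s.P → E3 → ℝ := fun b y => 2 * π * (L.uu w c b y - GG g b y + u b + g.δ y)
  have hW : ∀ y ∈ L.U, y ∈ g.R.spx g.W := fun y hy => g.mem_W y (by linarith [hU y hy])
  have ne : ∀ y b, δ ≤ L.lam y b → g.R.lam b y ≠ 0 := fun y b l => by
    have := LC.ne_of_le l
    rwa [hl] at this
  have ch : ∀ y ∈ L.O c, ∀ b ∈ s.A, ∀ b' ∈ s.A, δ ≤ L.lam y b → δ ≤ L.lam y b' → b ≤ b' →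
      f b y = f b' y := fun y hy b hb b' hb' l l' e => by
    simp only [f, LC.uu_change hz hc hy.1 hy.2.1.le hy.2.2.le hb hb' l l' e,
      GG_change g (hW y hy.1) (ne y b l) (ne y b' l') e, hu b b' (Dp.of_left hb e), Pi.add_apply, cb]
    push_cast; ring
  have an : ∀ y ∈ L.O c, ∀ b ∈ s.A, δ ≤ L.lam y b →
      th k y * Circle.exp (f b y) = L.phi w c y := fun y hy b hb l => by
    rw [LC.phi_eq hz hc hy.1 hy.2.1.le hy.2.2.le hb l]
    show th k y * ex _ = ex _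
    rw [ex_add, ex_add_int, ex_sub, ex_GG g (hW y hy.1) (ne y b l), Th, mul_comm, mul_assoc,
      mul_comm (ex (g.δ y)), div_mul_cancel]
  let ψ : E3 → ℝ := fun y => if e : ∃ b ∈ s.A, L.Big y b then f e.choose y else 0
  have eq : ∀ y ∈ L.O c, ∀ b ∈ s.A, δ ≤ L.lam y b → ψ y = f b y := fun y hy b hb l => by
    have e := LC.exists_bigA hy.1
    have e' := e.choose_spec
    simp only [ψ, dif_pos e]
    rcases LC.cm_of_le hy.1 l (e'.2.le hy.1) with n | n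
    exacts [(ch y hy b hb _ e'.1 l (e'.2.le hy.1) n).symm, ch y hy _ e'.1 b hb (e'.2.le hy.1) l n]
  have an' : ∀ y ∈ L.O c, An k ψ y = L.phi w c y := fun y hy => by
    obtain ⟨b, hb, l⟩ := LC.exists_bigA hy.1
    rw [An, eq y hy b hb (l.le hy.1), an y hy b hb (l.le hy.1)]
  refine ⟨ψ, fun y hy => ContDiffAt.contDiffWithinAt ?_, an'⟩
  obtain ⟨b, hb, l⟩ := LC.exists_bigA hy.1
  have r := hU y hy.1
  have su : ContDiffAt ℝ ∞ (L.uu w c b) y :=
    (L.contDiffOn_uu w c b).contDiffAt (L.isOpen.mem_nhds hy.1)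
  refine (contMDiffAt_log (I := 𝓡 3) (ContinuousAt.congr (f := f b) ?_ ?_) ?_).contDiffAt
  · exact continuousAt_const.mul (((su.continuousAt.sub ((g.R.continuousOn_pl _).continuousAt
      (mem_interior_iff_mem_nhds.1 (g.far y (by linarith))))).add continuousAt_const).add
      (continuousAt_δ g (by linarith)))
  · filter_upwards [(L.isOpen_O c).mem_nhds hy, l.ev hy.1] with x h1 h2
    exact (eq x h1 b hb (h2.le h1.1)).symm
  · refine (((contMDiff_ex _).comp y su.contMDiffAt).mul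
      (contMDiffAt_th k (by linarith)).inv).congr_of_eventuallyEq ?_
    filter_upwards [(L.isOpen_O c).mem_nhds hy, LC.phi_ev hz hc hy hb l] with x h1 h2
    rw [Pi.mul_apply, eq_mul_inv_iff_mul_eq, mul_comm]
    exact (an' x h1).trans h2

theorem dl_phi {L : LC E3 s.A δ} {ψ : E3 → ℝ} (hψ : ∀ y ∈ L.O c, An k ψ y = L.phi w c y)
    (hz : Zc s.A w) (hc : c < 1 / 2) (hp : p ∈ L.O c) (hb : b ∈ s.A) (l : L.Big p b) (v : E3) :
    dl (𝓡 3) (An k ψ) p v = 2 * π * fderiv ℝ (L.uu w c b) p v := by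
  have su : ContDiffAt ℝ ∞ (L.uu w c b) p :=
    (L.contDiffOn_uu w c b).contDiffAt (L.isOpen.mem_nhds hp.1)
  rw [dl_congr (EventuallyEq.trans (eventually_of_mem ((L.isOpen_O c).mem_nhds hp) hψ)
    (LC.phi_ev hz hc hp hb l)), dl_exp (contDiffAt_const.mul su).contMDiffAt, Dr59.mf_eq_fderiv,
    fderiv_const_mul (su.differentiableAt (by simp))]
  rfl

theorem base_fld' {A : Set s.P} {R : Real s.P E3} (M : Mol (bary R) W δ) (hδ : 0 < δ)
    (hs : Fintype.card s.P * δ ≤ 1 / 100) (hA : A.OrdConnected) (hW : IsOpen W)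
    (hB : W ⊆ interior R.B) (hK : ∀ ν, IsWt ν → wS Aᶜ ν ≤ 1 / 6 → pt R.x ν ∈ W)
    {c : s.P → s.P → ℝ} (hc : ∀ x y, 0 < c x y) : (LC.base M hδ hs hA hW hB hK).Fld (M.fld c) :=
  fun y _ => ⟨rate c δ (M.Λ y), rate_nonneg (fun x y => (hc x y).le) hδ _,
    fun _ _ h => ⟨(rate_ne hδ h).1, (rate_ne hδ h).2.2⟩,
    fun _ _ h hs ht => rate_pos hδ h (hc _ _) hs ht, by
      simp only [Mol.fld, upV, pt_sum, pt_smul, pt_sub, pt_e]
      rfl⟩

theorem exists_large {X : Type} [TopologicalSpace X] {K : Set X} (hK : IsCompact K) {f₁ f₂ : X → ℝ}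
    (h1 : Continuous f₁) (h2 : Continuous f₂) (h : ∀ x ∈ K, 0 < f₂ x) :
    ∃ C, 0 ≤ C ∧ ∀ x ∈ K, 0 < f₁ x + C * f₂ x := by
  obtain ⟨C, hC⟩ := (hK.image_of_continuousOn (f := fun x => (1 - f₁ x) / f₂ x)
    ((continuousOn_const.sub h1.continuousOn).div h2.continuousOn fun x hx => (h x hx).ne')).bddAbove
  refine ⟨max C 0, le_max_right _ _, fun x hx => ?_⟩
  have := (div_le_iff₀ (h x hx)).1 ((hC ⟨x, hx, rfl⟩).trans (le_max_left C 0))
  linarith

include h in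
/-- a field which raises the smoothed radius -/
theorem exists_fld (hA : IsUpperSet s.A) (M : Mol (bary g.R) W δ) (hδ : 0 < δ)
    (hW : ∀ p, 1 / 2 ≤ rho k.toTube p → p ∈ W) (h1 : 2 * (Fintype.card s.P * δ) < a)
    (h2 : Fintype.card s.P * δ ≤ 1 / 100) {μ : E3 → ℝ}
    (hμ : ∀ p, 1 / 2 ≤ rho k.toTube p → ∀ x y, δ ≤ g.R.lam x p → δ ≤ g.R.lam y p →
      fderiv ℝ μ p (g.R.x y - g.R.x x) = g.ρ (g.R.x y) - g.ρ (g.R.x x)) :
    ∃ c : s.P → s.P → ℝ, (∀ x y, 0 < c x y) ∧ ∀ p, 1 / 2 ≤ rho k.toTube p → a ≤ wS s.Aᶜ (M.Λ p) →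
      wS s.Aᶜ (M.Λ p) ≤ 1 / 2 → 0 < fderiv ℝ μ p (M.fld c p) := by
  let F : (s.P → s.P → ℝ) → E3 → ℝ := fun c p => pr (fun x => g.ρ (g.R.x x)) (upV c δ (M.Λ p))
  have cF : ∀ c, Continuous (F c) := fun c =>
    (prL _).continuous.comp ((contDiff_upV c δ).continuous.comp M.smooth.continuous)
  have cm : Continuous fun p => wS s.Aᶜ (M.Λ p) := (wL _).continuous.comp M.smooth.continuous
  obtain ⟨C, h0, hC⟩ := exists_large (((isCompact_far k.toTube (r := 1 / 2) (by norm_num)).inter_right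
    ((isClosed_Icc (a := a) (b := 1 / 2)).preimage cm))) (cF fun _ _ => 1)
    (cF fun x y => io s.Aᶜ x * io s.A y) fun p hp => by
      have hp' := hW p hp.1
      obtain ⟨x, hx, bx⟩ := exists_gt (S := s.Aᶜ) (μ := M.Λ p) (c := 2 * δ) (by linarith)
        (by linarith [hp.2.1])
      obtain ⟨y, hy, by'⟩ := exists_gt (S := s.A) (μ := M.Λ p) (c := 2 * δ) (by linarith)
        (by linarith [hp.2.2, wS_compl s.A (M.Λ p), M.sum_one p hp'])
      have lt : ∀ x y, x ∉ s.A → y ∈ s.A → g.ρ (g.R.x x) < g.ρ (g.R.x y) := fun x y hx hy =>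
        (not_lt.1 fun e => hx ((g.mem_A x).2 e)).trans_lt ((g.mem_A y).1 hy)
      refine pr_upV_pos (fun x y => mul_nonneg (io_nonneg _ _) (io_nonneg _ _)) hδ
        (fun x y _ e _ _ => (lt x y (fun n => e (by rw [io_not (not_not.2 n), zero_mul]))
          (by_contra fun n => e (by rw [io_not n, mul_zero]))).le) ?_
        (by rw [io_mem hx, io_mem hy]; norm_num) bx by' (lt x y hx hy)
      have := (Real.wt_mem (mem_B g (p := p) (by linarith [show 1 / 2 ≤ rho k.toTube p from hp.1]))).cm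
        (hδ.trans (M.big hp' bx)).ne' (hδ.trans (M.big hp' by')).ne'
      exact (this.resolve_right fun l => hx (hA l hy)).lt_of_ne fun e => hx (e ▸ hy)
  refine ⟨fun x y => 1 + C * (io s.Aᶜ x * io s.A y), fun x y => add_pos_of_pos_of_nonneg one_pos
    (mul_nonneg h0 (mul_nonneg (io_nonneg _ _) (io_nonneg _ _))), fun p r l l' => ?_⟩
  refine (hC p ⟨r, l, l'⟩).trans_eq ?_
  simp only [F, pr_upV]
  simp only [Mol.fld, upV, pt_sum, pt_smul, pt_sub, pt_e, map_sum, map_smul, smul_eq_mul,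
    Finset.mul_sum, ← Finset.sum_add_distrib]
  refine Finset.sum_congr rfl fun x _ => Finset.sum_congr rfl fun y _ => ?_
  by_cases e : rate (fun x y => 1 + C * (io s.Aᶜ x * io s.A y)) δ (M.Λ p) x y = 0
  · rw [e, zero_mul, ← mul_assoc, ← add_mul, mul_eq_zero]
    left
    rw [← e]
    simp only [rate]
    split_ifs <;> ring
  · have b := (rate_ne hδ e).2.2
    rw [bary_x, hμ p r x y (M.big (hW p r) b.1).le (M.big (hW p r) b.2).le]
    simp only [rate]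
    split_ifs <;> ring

include h in
/-- coordinates, weight and field of stage `-1` -/
theorem exists_lc (hA : IsUpperSet s.A) (hδ : 0 < δ) (h1 : 2 * (Fintype.card s.P * δ) < a)
    (h2 : Fintype.card s.P * δ ≤ 1 / 100) {μ : E3 → ℝ}
    (hμ : ∀ p, 1 / 2 ≤ rho k.toTube p → ∀ x y, δ ≤ g.R.lam x p → δ ≤ g.R.lam y p →
      fderiv ℝ μ p (g.R.x y - g.R.x x) = g.ρ (g.R.x y) - g.ρ (g.R.x x)) :
    ∃ (L : LC E3 s.A δ) (v : E3 → E3) (m : E3 → ℝ), L.lam = g.R.wt ∧ L.Fld v ∧ ContDiff ℝ ∞ v ∧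
      ContDiff ℝ ∞ m ∧ (∀ p, p ∈ L.U ↔ 1 / 2 < rho k.toTube p ∧ m p < 1 / 4) ∧
      (∀ p ∈ L.U, L.p p = 0 ∧ L.m p = m p) ∧
      (∀ p, 1 / 2 < rho k.toTube p → rho k.toTube p ≤ 3 / 4 → m p = 1) ∧
      (∀ p, 5 / 2 ≤ rho k.toTube p → m p = 0) ∧
      ∀ p, 1 / 2 ≤ rho k.toTube p → a ≤ m p → m p ≤ 1 / 2 → 0 < fderiv ℝ μ p (v p) := by
  obtain ⟨W, hW, hK, -, hB, ⟨M⟩⟩ := (bary g.R).exists_mol
    (isCompact_far k.toTube (r := 1 / 2) (by norm_num))
    (fun p hp => g.far p (by linarith [show 1 / 2 ≤ rho k.toTube p from hp])) hδ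
  have hB' : W ⊆ interior g.R.B := subset_closure.trans hB
  obtain ⟨c, hc, hv⟩ := exists_fld g h hA M hδ (fun _ hp => hK hp) h1 h2 hμ
  have hν : ∀ ν, IsWt ν → wS s.Aᶜ ν ≤ 1 / 6 → pt g.R.x ν ∈ W := fun ν hν l => by
    obtain ⟨x, hx, e⟩ := exists_gt (S := s.A) (μ := ν) (c := 0) le_rfl
      (by linarith [wS_compl s.A ν, hν.sum])
    exact hK (rho_of_A g h (Real.cmb_mem hν) (by
      rw [Real.lam, Real.wt_cmb hν]; exact e.ne') hx).le
  let L := LC.base M hδ h2 hA.ordConnected hW hB' hν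
  have p0 : ∀ p, L.p p = 0 := fun p => wS_zero fun q ⟨n, a, ha, l⟩ => (n (hA l ha)).elim
  have nr := fun p x (r : 1 / 2 ≤ rho k.toTube p) (hx : M.Λ p x ≠ 0) =>
    abs_le.1 (near_mol g h M hδ h2 (hK r) (mem_B g (by linarith)) hx)
  refine ⟨L, M.fld c, fun p => wS s.Aᶜ (M.Λ p), rfl, base_fld' M hδ h2 _ hW hB' hν hc,
    M.contDiff_fld c, (wL s.Aᶜ).contDiff.comp M.smooth, fun p => ⟨fun hp => ⟨?_, hp.2⟩,
      fun hp => ⟨hK hp.1.le, hp.2⟩⟩, fun p hp => ⟨p0 p, ?_⟩, fun p r r' => ?_, fun p r => ?_, hv⟩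
  · obtain ⟨b, hb, l⟩ := LC.exists_bigA hp
    exact rho_of_A g h (interior_subset (hB' hp.1)) (LC.ne_of_le (l.le hp)) hb
  · rw [← zero_add (L.m p), ← p0 p, ← LC.w_not hp]
    rfl
  · show wS _ _ = 1
    rw [wS_compl, M.sum_one p (hK r.le), wS_zero fun x hx => by_contra fun n => ?_, sub_zero]
    linarith [nr p x r.le n, (g.mem_A x).1 hx, g.r0_mem.1]
  · refine wS_zero fun x hx => by_contra fun n => hx ((g.mem_A x).2 ?_)
    linarith [nr p x (by linarith) n, g.r0_mem.2]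

include h in
/-- the data of stage `-1` -/
theorem dat (H1 : I1Stmt) (H2 : I2Stmt) (hA : IsUpperSet s.A) (hk : Coh s.A g.z w) (hw : Adm s w)
    (hδ : 0 < δ) {b : ℝ} (T : Thr (Fintype.card s.P * δ) a b c) {μ : E3 → ℝ} (sμ : ContDiff ℝ ∞ μ)
    (rμ : ∀ (y u : Circle) (r : ℝ), 1 / 2 ≤ r → r ≤ 5 / 2 →
      0 < deriv (fun r : ℝ => μ (tb k.toTube (y, r * u))) r)
    (hμ : ∀ p, 1 / 2 ≤ rho k.toTube p → ∀ x y, δ ≤ g.R.lam x p → δ ≤ g.R.lam y p →
      fderiv ℝ μ p (g.R.x y - g.R.x x) = g.ρ (g.R.x y) - g.ρ (g.R.x x)) :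
    ∃ (L : LC E3 s.A δ) (D : Lev39.Dat k), L.Fld D.v ∧
      (∀ p ∈ L.U, 1 / 2 < rho k.toTube p ∧ D.m p ≤ 1 / 4 ∧ L.p p = 0) ∧
      D.M = {y | y ∈ L.U ∧ L.m y ≤ a ∧ L.phi w c y = 1} := by
  have := ne_P g
  have e0 : 0 < Fintype.card s.P * δ := mul_pos (by exact_mod_cast Fintype.card_pos) hδ
  obtain ⟨t0, t1, t2, t3⟩ := id T
  have hz := zc_of hw.sf.coc hw.sf.mono hw.spr
  obtain ⟨L, v, m, hl, hv, sv, sm, hU, hm, m1, m0, vμ⟩ := exists_lc g h (a := a) hA hδ (by linarith)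
    (by linarith) hμ
  have hc : c < 1 / 2 := by linarith
  obtain ⟨ψ, sψ, hψ⟩ := exists_psi g L hl (fun y hy => ((hU y).1 hy).1) hk hz hc
  have U : ∀ {p}, 1 / 2 < rho k.toTube p → m p < c → p ∈ L.U := fun r l =>
    (hU _).2 ⟨r, by linarith⟩
  have O : ∀ {p}, p ∈ L.U → m p < c → p ∈ L.O c := fun {p} hp l =>
    ⟨hp, by rw [(hm p hp).1]; linarith, by rwa [(hm p hp).2]⟩
  refine ⟨L, ⟨m, μ, ψ, v, a, b, c, by linarith, by linarith, by linarith, sm, sμ, sv,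
    sψ.mono fun p hp => O (U hp.1 hp.2) hp.2, m1, fun p r => by rw [m0 p r]; norm_num, rμ,
    fun p r _ l => ?_, fun p r => vμ p r.le, fun p r l => ?_, fun p r l n => ?_, fun p r l e => ?_,
    fun p u r l l' u0 e => ?_⟩, hv, fun p hp => ⟨((hU p).1 hp).1, ((hU p).1 hp).2.le, (hm p hp).1⟩,
    Set.ext fun p => ⟨fun hp => ?_, fun ⟨hp, l, e⟩ => ?_⟩⟩
  · have hp := U r (by linarith)
    rw [← EventuallyEq.fderiv_eq (eventually_of_mem (L.isOpen.mem_nhds hp) fun y hy => (hm y hy).2)]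
    exact hv.m_nonpos hp
  · have hp := U r (by linarith)
    obtain ⟨x, hx, bx⟩ := LC.exists_bigA hp
    rw [dl_phi hψ hz hc (O hp (by linarith)) hx bx]
    exact mul_nonneg (by positivity) (hv.uu_nonneg hz hc hp hx)
  · have hp := U r (by linarith)
    have hO := O hp (by linarith)
    obtain ⟨x, hx, bx, ps⟩ := hv.uu_pos hz hc hp hO.2.1.le (by linarith [(hm p hp).2])
      (hψ p hO ▸ n)
    rw [dl_phi hψ hz hc hO hx bx]
    exact mul_pos (by positivity) ps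
  · have hp := U r (by linarith)
    obtain ⟨S, s1, s2, ⟨q, s3, s4⟩, s5⟩ := H1 _ _ w δ a b c L hA hz hw.sf.nc T p hp
      (by rwa [(hm p hp).2]) (hψ p (O hp (by linarith)) ▸ e)
    refine ⟨S, s1, s2, ⟨q, s3, (hm q (s5 q s3).1).2 ▸ s4⟩, fun y hy => ?_⟩
    obtain ⟨y1, y2, y3⟩ := s5 y hy
    rw [(hm y y1).2] at y2
    exact ⟨((hU y).1 y1).1, y2, hψ y (O y1 (by linarith)) ▸ y3⟩
  · have hp := U r (by linarith)
    obtain ⟨S, s1, s2, s3, s5⟩ := H2 _ _ w δ a b c L hA hz hw.cd T p hp u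
      (by rwa [(hm p hp).2]) (by rwa [(hm p hp).2]) u0 (hψ p (O hp (by linarith)) ▸ e)
    refine ⟨S, s1, s2, s3, fun y hy => ?_⟩
    obtain ⟨y1, y2, y3, y4, y5⟩ := s5 y hy
    rw [(hm _ y1).2] at y2 y3
    exact ⟨((hU _).1 y1).1, y2, y3, y4, hψ _ (O y1 (by linarith)) ▸ y5⟩
  · obtain ⟨r, l, e⟩ : 1 / 2 < rho k.toTube p ∧ m p ≤ a ∧ An k ψ p = 1 := hp
    have hp := U r (by linarith)
    exact ⟨hp, by rwa [(hm p hp).2], hψ p (O hp (by linarith)) ▸ e⟩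
  · rw [(hm p hp).2] at l
    exact ⟨((hU p).1 hp).1, l, (hψ p (O hp (by linarith))).trans e⟩

end Crest.Agent.X212.St29
end
end

-- ▼ part X212/Dic6/Plan
section

/-!
# Row 212, level zero (helper6): PLAN
-/

set_option autoImplicit false
set_option linter.unusedSectionVars false
noncomputable section
open Set Filter Topology Function Complex Metric
open scoped ContDiff Manifold

namespace Crest.Agent.X212.Dic6
open Prf6 Lad50.Si
open Hel40 (Lifts)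

/-- an arc has a non-separating dual (after `Lad50.Si.step`) -/
theorem exists_ns (X : Sf) (hM : IsPreconnected (univ : Set X.R)) {Z : Set X.R} {B : ℂ → X.R}
    {η : X.R → ℝ} (h : Arc X.o Z B η) : ∃ A, An X.o A ∧ NS A := by
  have hB := h.st
  have e0 : Zᶜ \ core B = (Z ∪ core B)ᶜ := by rw [compl_union]; rfl
  have ho := h.cl'.isOpen_compl
  obtain ⟨γ, hγ, hγU, hγZ, k, hk, hγ0⟩ := Arx49.arcx X Zᶜ (core B) B h.cl.isOpen_compl (e0 ▸ ho)
    (e0 ▸ h.cc) (hB.1 0) (h.off 0) (Eventually.of_forall fun z => hB.mem_core)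
  have hkI : (k : ℂ) * I ≠ 0 := mul_ne_zero (ofReal_ne_zero.2 hk.ne') I_ne_zero
  obtain ⟨A, hAn, hAU, hAγ, hA0⟩ := Tub3.tub X γ Zᶜ 1 (fun _ => 0) (fun _ z => B (0 + k * I * z)) hγ
    h.cl.isOpen_compl hγU (fun _ _ _ _ => Subsingleton.elim _ _)
    (fun _ => (hB.affine hkI 0).1 0) (fun _ => hγ0.mono fun u hu => by
      rw [zero_add u, hu]; congr 1; ring)
  have hγ00 : γ 0 = B 0 := by simpa using hγ0.self_of_nhds
  obtain ⟨c1, y, hy⟩ := arc_conn h (l := atTop) (by rw [cocompact_eq_atBot_atTop]; exact le_sup_right)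
    (Ioi_mem_atTop 0) isPreconnected_Ioi
  obtain ⟨c2, -⟩ := arc_conn h (l := atBot) (by rw [cocompact_eq_atBot_atTop]; exact le_sup_left)
    (Iio_mem_atBot 0) isPreconnected_Iio
  have h1 : Tendsto (fun s : ℝ => (s : ℂ) * I) (𝓝 0) (𝓝 0) :=
    Continuous.tendsto' (by fun_prop) _ _ (by simp)
  obtain ⟨r, hr, hrr⟩ := Metric.eventually_nhds_iff.1 (h1.eventually (hA0 0))
  have h2 : ∀ s : ℝ, |s| < r → A (s * I) = B ((-(k * s) : ℝ)) := fun s hs => by
    have := hrr (y := s) (by simpa using hs)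
    rw [ofReal_zero, zero_add] at this
    rw [this]
    congr 1
    push_cast
    linear_combination k * s * I_sq
  have h3 : ∀ t : ℝ, t ≠ 0 → B t ∉ core A := by
    rintro t ht ⟨s, hs⟩
    simp only [hAγ] at hs
    obtain ⟨n, rfl⟩ := hγZ s (hs ▸ ⟨t, rfl⟩)
    have h4 := hγ.per 0 n
    rw [zero_add, hs, hγ00] at h4
    exact ht (ofReal_eq_zero.1 (hB.2 h4))
  refine ⟨A, hAn, ns_of_join hM hAn (c1.union y (.inl hy) (.inl hy) c2) ?_ (z := (r / 2 : ℝ) * I)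
    (w := (-(r / 2) : ℝ) * I) (by simpa using hr) (by simpa using hr) ?_ ?_⟩
  · rintro p ((hp | ⟨t, ht, rfl⟩) | hp | ⟨t, ht, rfl⟩)
    · exact fun hq => hAU (core_subset A hq) hp
    · exact h3 t (ne_of_gt ht)
    · exact fun hq => hAU (core_subset A hq) hp
    · exact h3 t (ne_of_lt ht)
  · rw [h2 _ (by rw [abs_of_pos] <;> linarith)]
    exact .inr (.inr ⟨_, by simp only [mem_Iio]; nlinarith, rfl⟩)
  · rw [h2 _ (by rw [abs_neg, abs_of_pos] <;> linarith)]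
    exact .inl (.inr ⟨_, by simp only [mem_Ioi]; nlinarith, rfl⟩)

section
variable {M : Type*} [TopologicalSpace M] [ChartedSpace ℂ M] [IsManifold IC ∞ M] [T2Space M]
  {o : Or M} {A : ℂ → M}

/-- functions of the height of an annulus chart -/
theorem exists_ht (hA : An o A) {T : Type*} [TopologicalSpace T] {g : ℝ → T} {c : T}
    (hg : ∀ r ∉ Icc (0 : ℝ) 1, g r = c) : ∃ f : M → T, (∀ z, f (A z) = g z.im) ∧
      (∀ x ∉ range A, f x = c) ∧ ∀ x, (∀ z, A z = x → ContinuousAt g z.im) → ContinuousAt f x := by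
  classical
  let f : M → T := fun x => if h : ∃ z, A z = x then g h.choose.im else c
  have h1 : ∀ z, f (A z) = g z.im := fun z => by
    have h : ∃ w, A w = A z := ⟨z, rfl⟩
    simp only [f, dif_pos h, hA.im_eq h.choose_spec]
  have h2 : ∀ x ∉ range A, f x = c := fun x hx => dif_neg hx
  refine ⟨f, h1, h2, fun x hx => ?_⟩
  by_cases hr : x ∈ range A
  · obtain ⟨z, rfl⟩ := hr
    rw [ContinuousAt, ← (hA.1 z).map_nhds, tendsto_map'_iff]
    exact ((hx z rfl).comp continuous_im.continuousAt).congr (f := g ∘ im)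
      (Eventually.of_forall fun w => (h1 w).symm)
  · refine (continuousAt_const (y := c)).congr ?_
    filter_upwards [((isCompact_bx 0 1).image (cont_of_pm hA.1)).isClosed.isOpen_compl.mem_nhds
      fun h => hr (image_subset_range _ _ h)] with y hy
    by_cases hy' : y ∈ range A
    · obtain ⟨z, rfl⟩ := hy'
      rw [h1, hg _ fun h => hy (hA.mem_bx.2 h)]
    · exact (h2 y hy').symm

/-- the step across a non-separating annulus is essential -/
theorem exists_ess (hA : An o A) (hn : NS A) : ∃ w : M → Circle, Continuous w ∧ ¬ Lifts w univ := by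
  set σ := Real.smoothTransition
  have hσ : Continuous σ := Real.smoothTransition.continuous
  have s0 : ∀ r ≤ (0 : ℝ), σ r = 0 := fun r => Real.smoothTransition.zero_of_nonpos
  have s1 : ∀ r ≥ (1 : ℝ), σ r = 1 := fun r => Real.smoothTransition.one_of_one_le
  obtain ⟨w, w1, w2, w3⟩ := exists_ht hA (g := fun r => Circle.exp (2 * Real.pi * σ r)) (c := 1)
    fun r hr => by
      obtain ⟨n, hn⟩ := st_int hr
      rw [show σ r = n from hn, mul_comm, Circle.exp_int_mul_two_pi]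
  obtain ⟨m, m1, m2, m3⟩ := exists_ht hA (g := fun r => if 0 < r then 2 * Real.pi * (σ r - 1) else 0)
    (c := (0 : ℝ)) fun r hr => by
      split_ifs with h
      · rw [s1 r (not_le.1 fun k => hr ⟨h.le, k⟩).le]; simp
      · rfl
  refine ⟨w, continuous_iff_continuousAt.2 fun x => w3 x fun z _ => by fun_prop, fun ⟨l, l1, l2⟩ => ?_⟩
  have l0 := continuousOn_univ.1 l1
  have a : l (A (2 * I)) - m (A (2 * I)) = l (A (-I)) - m (A (-I)) := by
    have e : ∀ x, Circle.exp (l x - m x) = 1 := fun x => by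
      rw [Circle.exp_sub, ← l2 x trivial, div_eq_one]
      by_cases hx : x ∈ range A
      · obtain ⟨z, rfl⟩ := hx
        rw [w1, m1]
        split_ifs with h
        · rw [mul_sub, Circle.exp_sub]; simp
        · rw [s0 _ (not_lt.1 h), mul_zero]
      · simp [w2 x hx, m2 x hx]
    refine Circle.isCoveringMap_exp.constOn_of_comp hn (l0.continuousOn.sub fun x hx =>
      (m3 x fun z e => ?_).continuousWithinAt) (fun x _ y _ => (e x).trans (e y).symm)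
      (by simp [hA.mem_core]) (by simp [hA.mem_core])
    rcases lt_or_gt_of_ne (show z.im ≠ 0 from fun k => hx (e ▸ hA.mem_core.2 k)) with k | k
    · exact continuousAt_const.congr ((gt_mem_nhds k).mono fun r hr => (if_neg (not_lt.2 hr.le)).symm)
    · exact (by fun_prop : ContinuousAt (fun r => 2 * Real.pi * (σ r - 1)) z.im).congr
        ((lt_mem_nhds k).mono fun r hr => (if_pos hr).symm)
  have b := Circle.isCoveringMap_exp.const_of_comp (g := fun s : ℝ => l (A (s * I)) - 2 * Real.pi * σ s)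
    ((l0.comp ((cont_of_pm hA.1).comp (by fun_prop))).sub (by fun_prop)) (fun s t => by
      simp [Circle.exp_sub, ← l2 _ trivial, w1]) 2 (-1)
  rw [m1, m1] at a
  simp [s1 2 (by norm_num), s0 (-1) (by norm_num)] at a b
  rw [if_neg (by norm_num)] at a
  linarith [Real.pi_pos]

end

theorem plan : St29.PlanStmt := by
  intro X hX
  by_cases h : ∃ A, An X.o A ∧ NS A
  · obtain ⟨A, a, b⟩ := h
    exact .inl (exists_ess a b)
  refine .inr fun x L hL hx => ?_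
  obtain ⟨c⟩ := graph0 X hX x
  have m0 : c.m = 0 := by
    by_contra k
    exact h (exists_ns X hX (c.arc 0 (Nat.pos_of_ne_zero k)))
  obtain ⟨φ, a1, -, a2⟩ := c.root _ (hL.isClosed.isOpen_compl.mem_nhds hx)
  obtain ⟨D, d1, -, d2⟩ := c.face
  obtain ⟨ψ, b1, -, b2⟩ := d2 _ (hL.image (G_cont_inv (a1.mem 1))) (by
    rintro _ ⟨y, hy, rfl⟩ k
    rw [m0] at k
    exact a2 ⟨_, k, rfl⟩ (by simpa using hy))
  refine ⟨_, (d1.comp (inv_mem (b1.mem 1))).comp (a1.mem 1), fun y hy => ?_⟩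
  obtain ⟨z, hz⟩ := b2 ⟨_, ⟨y, hy, rfl⟩, rfl⟩
  exact ⟨z, by simp [hz]⟩

end Crest.Agent.X212.Dic6
end
end

-- ▼ part X212/Sch47/Main

/-!
# X212 / Sch47 (helper47): `St29.SchStmt`, `St29.UnkStmt`
-/

set_option autoImplicit false

open Set Filter Topology Function Metric
open scoped ContDiff Manifold
open Crest.Agent.R096.P5Spec_205 (HomeoOn)
open Crest.Agent.X212.Smo49 (PLAt str_iff plAt_of_univ)
open Crest.Agent.X212.Sm25 (An isOpen_An)
open Crest.Agent.R105.Iod1_690 (isOpen_image_fd)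

noncomputable section

namespace Crest.Agent.X212.Sch47

theorem unk : St29.UnkStmt := by
  intro t c δ h1 h2
  obtain ⟨F, ⟨R, f1⟩, f2⟩ := Grm47.exists_transl c (-c)
  obtain ⟨Ψ, p1, -⟩ := Glb47.exists_pushH t.isOpenEmbedding
    ((Homeomorph.refl Circle).prodCongr F.toHomeomorph)
    (isCompact_univ.prod (isCompact_closedBall (0 : ℂ) R)) fun x hx => Prod.ext rfl
      (f1 _ (not_le.1 fun h => hx ⟨mem_univ _, mem_closedBall_zero_iff.2 h⟩).le)
  have p2 : ∀ u, Ψ (t.τ (u, c)) = t.τ (u, 0) := fun u => (p1 _).trans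
    (congrArg (fun z => t.τ (u, z)) (f2.self_of_nhds.trans (add_neg_cancel c)))
  refine ⟨Ψ ∘ δ, Ψ.isOpenEmbedding.comp h1, ?_⟩
  rw [image_comp, h2]
  refine Subset.antisymm ?_ ?_
  · rintro _ ⟨_, ⟨⟨u, _⟩, ⟨-, rfl⟩, rfl⟩, rfl⟩
    exact ⟨(u, 0), ⟨mem_univ _, rfl⟩, (p2 u).symm⟩
  · rintro _ ⟨⟨u, _⟩, ⟨-, rfl⟩, rfl⟩
    exact ⟨_, ⟨(u, c), ⟨mem_univ _, rfl⟩, rfl⟩, p2 u⟩

theorem homeoOn_of {h : ℂ → ℂ} {U : Set ℂ} (hU : IsOpen U) (hc : ContinuousOn h U)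
    (hi : InjOn h U) : HomeoOn h U (h '' U) := by
  refine ⟨hi.bijOn_image, hc, invFunOn h U, continuousOn_iff'.2 fun t ht => ⟨h '' (U ∩ t),
    isOpen_image_fd rfl (hU.inter ht) (hc.mono inter_subset_left) (hi.mono inter_subset_left), ?_⟩,
    fun x hx => hi.leftInvOn_invFunOn hx⟩
  ext y
  refine and_congr_left ?_
  rintro ⟨x, hx, rfl⟩
  rw [mem_preimage, hi.leftInvOn_invFunOn hx, hi.mem_image_iff inter_subset_left hx]
  exact ⟨fun h => ⟨hx, h⟩, fun h => h.2⟩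

/-- the square of half side `1 / 2` becomes the unit sphere -/
def sqL : ℂ ≃L[ℝ] ℝ × ℝ := Complex.equivRealProdCLM.trans (Grm47.hom _ (c := 2⁻¹) (by norm_num))

theorem norm_sqL (z : ℂ) : ‖sqL z‖ = 2 * max |z.re| |z.im| := by
  show ‖((2 : ℝ)⁻¹)⁻¹ • (z.re, z.im)‖ = _
  rw [norm_smul]
  simp [Prod.norm_def]

theorem sq_lt {z : ℂ} (h : ‖sqL z‖ ≤ 1) : ‖z‖ < 1 := by
  rw [norm_sqL] at h
  have h1 := abs_le.1 (show |z.re| ≤ 1 / 2 by linarith [le_max_left |z.re| |z.im|])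
  have h2 := abs_le.1 (show |z.im| ≤ 1 / 2 by linarith [le_max_right |z.re| |z.im|])
  refine lt_of_pow_lt_pow_left₀ 2 zero_le_one ?_
  rw [Complex.sq_norm, Complex.normSq_apply]
  nlinarith

theorem lt_sq {z : ℂ} (h : 1 ≤ ‖sqL z‖) : 16⁻¹ < ‖z‖ := by
  rw [norm_sqL] at h
  linarith [max_le (Complex.abs_re_le_norm z) (Complex.abs_im_le_norm z)]

theorem conn : IsPreconnected {z : ℂ | 1 < ‖sqL z‖ ∧ ‖z‖ < 16} := by
  have hS : IsPreconnected (sphere (0 : ℂ) 2) := (isPathConnected_sphere (by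
    rw [← Module.finrank_eq_rank]; simp) 0 zero_le_two).isConnected.isPreconnected
  refine isPreconnected_of_forall 2 fun z hz => ?_
  have z0 : 0 < ‖z‖ := lt_trans (by norm_num) (lt_sq hz.1.le)
  have n : ∀ s : ℝ, 0 ≤ s → ‖s • z‖ = s * ‖z‖ := fun s hs => by
    rw [norm_smul, Real.norm_of_nonneg hs]
  have e : 2 / ‖z‖ * ‖z‖ = 2 := div_mul_cancel₀ _ z0.ne'
  refine ⟨(fun s : ℝ => s • z) '' uIcc 1 (2 / ‖z‖) ∪ sphere 0 2, union_subset ?_ fun w hw => ?_,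
    Or.inr (by simp), Or.inl ⟨1, left_mem_uIcc, one_smul _ _⟩,
    IsPreconnected.union ((2 / ‖z‖) • z) ⟨_, right_mem_uIcc, rfl⟩
      (by rw [mem_sphere_zero_iff_norm, n _ (by positivity), e])
      (isPreconnected_uIcc.image _ (by fun_prop)) hS⟩
  · rintro _ ⟨s, hs, rfl⟩
    rcases mem_uIcc.1 hs with h | h
    · refine ⟨?_, by rw [n s (by linarith)]; nlinarith [h.2]⟩
      rw [map_smul, norm_smul, Real.norm_of_nonneg (by linarith)]
      nlinarith [hz.1, h.1]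
    · have s0 : 0 ≤ s := le_trans (by positivity) h.1
      refine ⟨not_le.1 fun c => ?_, by rw [n s s0]; nlinarith [hz.2, h.2]⟩
      have := sq_lt c
      rw [n s s0] at this
      nlinarith [h.1]
  · rw [mem_sphere_zero_iff_norm] at hw
    exact ⟨not_le.1 fun c => by linarith [sq_lt c], by linarith⟩

theorem step {h : ℂ → ℂ} (hi : InjOn h (An 16⁻¹ 16))
    (hl : ∀ z ∈ An 16⁻¹ 16, IsLocalDiffeomorphAt 𝓘(ℝ, ℂ) 𝓘(ℝ, ℂ) ∞ h z) :
    (∃ g : ℂ → ℂ, IsOpenEmbedding g ∧ g '' sphere 0 1 = h '' sphere 0 1) ∨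
      ∃ D J : Set ℂ, IsCompact D ∧ IsOpen (D \ J) ∧ J ⊆ h '' An 16⁻¹ 1 ∧ h '' An 1 16 ⊆ D := by
  classical
  have UA : An 16⁻¹ 1 ⊆ An 16⁻¹ 16 := fun z hz => ⟨hz.1, by linarith [hz.2]⟩
  have hc : ContinuousOn h (An 16⁻¹ 16) := fun z hz =>
    (hl z hz).contMDiffAt.continuousAt.continuousWithinAt
  have CU : sqL ⁻¹' sphere 0 1 ⊆ An 16⁻¹ 1 := fun z hz =>
    ⟨lt_sq (mem_sphere_zero_iff_norm.1 hz).ge, sq_lt (mem_sphere_zero_iff_norm.1 hz).le⟩
  obtain ⟨k, K, V, a1, a2, a3, a4, -, -, a7, a8⟩ := Sm25.plize (ρ := Complex.conjCLE) (by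
      rw [Prf6.det_C]; simp) (isOpen_An _ _)
    (isOpen_image_fd rfl (isOpen_An _ _) (hc.mono UA) (hi.mono UA))
    (homeoOn_of (isOpen_An _ _) (hc.mono UA) (hi.mono UA)) (isOpen_An _ _) Subset.rfl
    ⟨fun z hz => (hl z (UA hz)).contMDiffAt.contDiffAt.contDiffWithinAt,
      fun z hz => Prf6.dt_eq h z ▸ Prf6.dt_ne (hl z (UA hz))⟩
    (sqL.toHomeomorph.isCompact_preimage.2 (isCompact_sphere _ _)) CU
  have out : ∀ z, 1 ≤ ‖z‖ → k z = h z := fun z hz => a4 z fun c => (a3 c).2.not_ge hz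
  have ki : InjOn k (An 16⁻¹ 16) := by
    have key : ∀ z ∈ An 16⁻¹ 16, ∀ w ∈ An 16⁻¹ 16, ‖z‖ < 1 → 1 ≤ ‖w‖ → k z ≠ k w := by
      intro z hz w hw z1 w1 e
      obtain ⟨v, hv, e'⟩ := a1.bij.mapsTo (x := z) ⟨hz.1, z1⟩
      rw [e, out w w1] at e'
      exact hv.2.not_ge (hi (UA hv) hw e' ▸ w1)
    intro z hz w hw e
    rcases lt_or_ge ‖z‖ 1 with z1 | z1 <;> rcases lt_or_ge ‖w‖ 1 with w1 | w1
    · exact a1.bij.injOn ⟨hz.1, z1⟩ ⟨hw.1, w1⟩ e
    · exact absurd e (key z hz w hw z1 w1)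
    · exact absurd e.symm (key w hw z hz w1 z1)
    · exact hi hz hw (by rwa [out z z1, out w w1] at e)
  have kc : ContinuousOn k (An 16⁻¹ 16) := fun z hz => by
    by_cases c : z ∈ K
    · exact (a1.cont.continuousAt ((isOpen_An _ _).mem_nhds (a3 c))).continuousWithinAt
    · refine (hc z hz).congr_of_eventuallyEq (nhdsWithin_le_nhds ?_) (a4 z c)
      filter_upwards [a2.isClosed.isOpen_compl.mem_nhds c] with w hw using a4 w hw
  have pL : ∀ x, PLAt sqL x := plAt_of_univ (R096.Bd_416.pl_clm (R096.Ce_537.plOn_id _)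
    (sqL : ℂ →L[ℝ] ℝ × ℝ))
  have pL' : ∀ x, PLAt sqL.symm x := plAt_of_univ (R096.Bd_416.pl_clm (R096.Ce_537.plOn_id _)
    (sqL.symm : ℝ × ℝ →L[ℝ] ℂ))
  have mC : ∀ x ∈ sphere (0 : ℝ × ℝ) 1, sqL.symm x ∈ sqL ⁻¹' sphere 0 1 := fun x hx => by
    simpa using hx
  obtain ⟨D, Φ, hΦ, hD, hU⟩ := Cor42.exists_disc (b := fun x => sqL (k (sqL.symm x)))
    (Lad50.plOn_of_locPL (fun x hx => (pL _).comp ((str_iff.1 a8 _ (a7 (mC x hx))).comp (pL' x)))
      (isCompact_sphere _ _) Subset.rfl)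
    fun x hx y hy e => sqL.symm.injective (ki (UA (CU (mC x hx))) (UA (CU (mC y hy)))
      (sqL.injective e))
  set J := (fun x => sqL (k (sqL.symm x))) '' sphere 0 1 with hJ
  set T := {z : ℂ | 1 < ‖sqL z‖ ∧ ‖z‖ < 16} with hT
  have TA : T ⊆ An 16⁻¹ 16 := fun z hz => ⟨lt_sq hz.1.le, hz.2⟩
  rcases (conn.image (fun z => sqL (k z)) (sqL.continuous.comp_continuousOn (kc.mono TA))
    ).subset_or_subset hU hD.isCompact.isClosed.isOpen_compl
    (disjoint_left.2 fun y a b => b a.1) (by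
      rintro _ ⟨z, hz, rfl⟩
      refine (em _).imp_left fun c => ⟨c, ?_⟩
      rintro ⟨x, hx, e⟩
      have := ki (UA (CU (mC x hx))) (TA hz) (sqL.injective e)
      exact hz.1.ne' (by rw [← this, sqL.apply_symm_apply]; exact mem_sphere_zero_iff_norm.1 hx))
    with c | c
  · refine Or.inr ⟨sqL ⁻¹' D, sqL ⁻¹' J, sqL.toHomeomorph.isCompact_preimage.2 hD.isCompact,
      hU.preimage sqL.continuous, ?_, ?_⟩
    · rintro y ⟨x, hx, e⟩
      exact sqL.injective e ▸ a1.bij.mapsTo (CU (mC x hx))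
    · rintro _ ⟨z, hz, rfl⟩
      rw [← out z hz.1.le]
      exact (c ⟨z, ⟨not_le.1 fun c => by linarith [sq_lt c, hz.1], hz.2⟩, rfl⟩).1
  left
  let G : ℂ → ℂ := fun z => if ‖sqL z‖ ≤ 1 then sqL.symm (Φ.f (sqL z)) else k z
  have g1 : ∀ z, ‖sqL z‖ ≤ 1 → G z = sqL.symm (Φ.f (sqL z)) := fun z hz => if_pos hz
  have g2 : ∀ z, 1 ≤ ‖sqL z‖ → G z = k z := fun z hz => by
    rcases hz.eq_or_lt with e | e
    · rw [g1 z e.ge, hΦ (mem_sphere_zero_iff_norm.2 e.symm)]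
      simp
    · exact if_neg e.not_ge
  have Gc : ContinuousOn G (closedBall 0 12) := by
    refine (ContinuousOn.union_of_isClosed (s := {z | ‖sqL z‖ ≤ 1})
      (t := {z | 1 ≤ ‖sqL z‖} ∩ closedBall 0 12)
      ((sqL.symm.continuous.comp_continuousOn (Φ.pf.1.comp sqL.continuous.continuousOn
        fun z hz => mem_closedBall_zero_iff.2 hz)).congr g1)
      ((kc.mono fun z hz => ⟨lt_sq hz.1, by linarith [mem_closedBall_zero_iff.1 hz.2]⟩).congr
        fun z hz => g2 z hz.1) (isClosed_le (by fun_prop) continuous_const)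
      ((isClosed_le continuous_const (by fun_prop)).inter isClosed_closedBall)).mono fun z hz => ?_
    exact (le_total ‖sqL z‖ 1).imp_right fun c => ⟨c, hz⟩
  have Gi : InjOn G (closedBall 0 12) := by
    have mT : ∀ z ∈ closedBall (0 : ℂ) 12, 1 < ‖sqL z‖ → z ∈ T := fun z hz c =>
      ⟨c, by linarith [mem_closedBall_zero_iff.1 hz]⟩
    have key : ∀ z, ∀ w ∈ T, ‖sqL z‖ ≤ 1 → G z ≠ G w := fun z w hw hz e => by
      rw [g1 z hz, g2 w hw.1.le, sqL.symm_apply_eq] at e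
      exact c ⟨w, hw, e.symm⟩ (Φ.mf (mem_closedBall_zero_iff.2 hz))
    intro z hz w hw e
    rcases le_or_gt ‖sqL z‖ 1 with z1 | z1 <;> rcases le_or_gt ‖sqL w‖ 1 with w1 | w1
    · rw [g1 z z1, g1 w w1] at e
      exact sqL.injective (Φ.injOn (mem_closedBall_zero_iff.2 z1) (mem_closedBall_zero_iff.2 w1)
        (sqL.symm.injective e))
    · exact absurd e (key z w (mT w hw w1) z1)
    · exact absurd e.symm (key w z (mT z hz z1) w1)
    · exact ki (TA (mT z hz z1)) (TA (mT w hw w1)) (by rwa [g2 z z1.le, g2 w w1.le] at e)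
  obtain ⟨ρ, r1, r2, r3, r4⟩ := Grm47.exists_rho
  have inj := (strictMono_of_deriv_pos r2).injective
  let e := Complex.equivRealProdCLM
  let r : ℂ → ℂ := fun z => e.symm (Prod.map ρ ρ (e z))
  have rm : ∀ z, r z ∈ closedBall (0 : ℂ) 12 := fun z => mem_closedBall_zero_iff.2 <|
    (Complex.norm_le_abs_re_add_abs_im _).trans
      (show |ρ z.re| + |ρ z.im| ≤ 12 by linarith [r4 z.re, r4 z.im])
  have c1 : Continuous (G ∘ r) := Gc.comp_continuous (e.symm.continuous.comp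
    ((r1.continuous.prodMap r1.continuous).comp e.continuous)) rm
  have i1 : Injective (G ∘ r) := fun z w h' =>
    (e.symm.injective.comp ((inj.prodMap inj).comp e.injective)) (Gi (rm z) (rm w) h')
  refine ⟨G ∘ r, .of_continuous_injective_isOpenMap c1 i1 fun U hU =>
    isOpen_image_fd rfl hU c1.continuousOn i1.injOn, image_congr fun z hz => ?_⟩
  have z1 := mem_sphere_zero_iff_norm.1 hz
  have : r z = z := e.symm_apply_eq.2 (Prod.ext (r3 _ ((Complex.abs_re_le_norm z).trans z1.le))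
    (r3 _ ((Complex.abs_im_le_norm z).trans z1.le)))
  rw [comp_apply, this, g2 z (not_lt.1 fun c => (sq_lt c.le).ne z1), out z z1.ge]

/-- radial powers -/
def pw (ε : ℝ) (z : ℂ) : ℂ := ‖z‖ ^ (ε - 1) • z

theorem norm_pw (ε : ℝ) {z : ℂ} (hz : z ≠ 0) : ‖pw ε z‖ = ‖z‖ ^ ε := by
  have := norm_pos_iff.2 hz
  rw [pw, norm_smul, Real.norm_of_nonneg (by positivity), Real.rpow_sub_one this.ne',
    div_mul_cancel₀ _ this.ne']

theorem pw_ne (ε : ℝ) {z : ℂ} (hz : z ≠ 0) : pw ε z ≠ 0 := by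
  have := norm_pos_iff.2 hz
  rw [← norm_pos_iff, norm_pw ε hz]
  positivity

theorem pw_pw {ε ε' : ℝ} (h : ε * ε' = 1) {z : ℂ} (hz : z ≠ 0) : pw ε' (pw ε z) = z := by
  have := norm_pos_iff.2 hz
  rw [pw, norm_pw ε hz, pw, smul_smul, ← Real.rpow_mul this.le, ← Real.rpow_add this,
    show ε * (ε' - 1) + (ε - 1) = 0 by linarith, Real.rpow_zero, one_smul]

theorem cd_pw (ε : ℝ) : ContMDiffOn 𝓘(ℝ, ℂ) 𝓘(ℝ, ℂ) ∞ (pw ε) {0}ᶜ := fun _ hz =>
  (((Glue52.contDiffAt_norm_c hz).rpow_const_of_ne (norm_ne_zero_iff.2 hz)).smul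
    contDiffAt_id).contMDiffAt.contMDiffWithinAt

theorem ld_pw {ε : ℝ} (h : ε ≠ 0) {z : ℂ} (hz : z ≠ 0) :
    IsLocalDiffeomorphAt 𝓘(ℝ, ℂ) 𝓘(ℝ, ℂ) ∞ (pw ε) z :=
  Cyl58.ld_of_inverse isOpen_compl_singleton isOpen_compl_singleton (cd_pw ε) (cd_pw ε⁻¹)
    (fun _ => pw_ne ε) (fun _ => pw_ne ε⁻¹) (fun _ => pw_pw (mul_inv_cancel₀ h))
    (fun _ => pw_pw (inv_mul_cancel₀ h)) hz

theorem pw_sphere {ε : ℝ} {z : ℂ} (hz : z ∈ sphere (0 : ℂ) 1) : pw ε z = z := by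
  simp [pw, mem_sphere_zero_iff_norm.1 hz]

theorem an_ne {a b : ℝ} (ha : 0 ≤ a) {z : ℂ} (hz : z ∈ An a b) : z ≠ 0 :=
  norm_pos_iff.1 (ha.trans_lt hz.1)

theorem repar {h : ℂ → ℂ} {A : Set ℂ} (hi : InjOn h A)
    (hl : ∀ z ∈ A, IsLocalDiffeomorphAt 𝓘(ℝ, ℂ) 𝓘(ℝ, ℂ) ∞ h z) {ε : ℝ} (hε : ε ≠ 0)
    (hm : MapsTo (pw ε) (An 16⁻¹ 16) A) : InjOn (h ∘ pw ε) (An 16⁻¹ 16) ∧
      (∀ z ∈ An 16⁻¹ 16, IsLocalDiffeomorphAt 𝓘(ℝ, ℂ) 𝓘(ℝ, ℂ) ∞ (h ∘ pw ε) z) ∧
      (h ∘ pw ε) '' sphere 0 1 = h '' sphere 0 1 :=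
  ⟨hi.comp (LeftInvOn.injOn (f₁' := pw ε⁻¹) fun _ hz =>
      pw_pw (mul_inv_cancel₀ hε) (an_ne (by norm_num) hz)) hm,
    fun z hz => Cyl58.ld_comp (hl _ (hm hz)) (ld_pw hε (an_ne (by norm_num) hz)),
    image_congr fun _ hz => congrArg h (pw_sphere hz)⟩

theorem inv_an {a b : ℝ} (ha : 0 < a) (hb : 0 < b) : MapsTo (pw (-1)) (An a b) (An b⁻¹ a⁻¹) :=
  fun z hz => by
    have z0 := ha.trans hz.1
    rw [An, mem_ofPred_eq, norm_pw _ (an_ne ha.le hz), Real.rpow_neg_one]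
    exact ⟨(inv_lt_inv₀ hb z0).2 hz.2, (inv_lt_inv₀ z0 ha).2 hz.1⟩

theorem fat {h : ℂ → ℂ} (hi : InjOn h (An 16⁻¹ 16))
    (hl : ∀ z ∈ An 16⁻¹ 16, IsLocalDiffeomorphAt 𝓘(ℝ, ℂ) 𝓘(ℝ, ℂ) ∞ h z) :
    ∃ g : ℂ → ℂ, IsOpenEmbedding g ∧ g '' sphere 0 1 = h '' sphere 0 1 := by
  obtain ⟨b1, b2, b3⟩ := repar hi hl (ε := -1) (by norm_num)
    (by simpa using inv_an (a := 16⁻¹) (b := 16) (by norm_num) (by norm_num))
  rcases step hi hl with H | ⟨D, J, d1, d2, d3, d4⟩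
  · exact H
  rcases step b1 b2 with H | ⟨D', J', e1, e2, e3, e4⟩
  · exact b3 ▸ H
  exfalso
  have m1 : MapsTo (pw (-1)) (An 16⁻¹ 1) (An 1 16) := by
    simpa using inv_an (a := 16⁻¹) (b := 1) (by norm_num) one_pos
  have e3' : J' ⊆ h '' An 1 16 := e3.trans (by rw [image_comp]; exact image_mono m1.image_subset)
  have e4' : h '' An 16⁻¹ 1 ⊆ D' := by
    rintro _ ⟨z, hz, rfl⟩
    exact e4 ⟨_, m1 hz, congrArg h (pw_pw (by norm_num) (an_ne (by norm_num) hz))⟩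
  have dj : ∀ x ∈ J, x ∉ J' := fun x h1 h2 => by
    obtain ⟨z, hz, rfl⟩ := d3 h1
    obtain ⟨w, hw, e⟩ := e3' h2
    have := hi (show w ∈ An 16⁻¹ 16 from ⟨by linarith [hw.1], hw.2⟩)
      (show z ∈ An 16⁻¹ 16 from ⟨hz.1, by linarith [hz.2]⟩) e
    exact (hw.1.trans (this ▸ hz.2)).false
  have : D ∪ D' = (D \ J) ∪ (D' \ J') := by
    refine Subset.antisymm ?_ (union_subset_union sdiff_subset sdiff_subset)
    rintro x (hx | hx)
    · by_cases c : x ∈ J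
      exacts [Or.inr ⟨e4' (d3 c), dj x c⟩, Or.inl ⟨hx, c⟩]
    · by_cases c : x ∈ J'
      exacts [Or.inl ⟨d4 (e3' c), fun c' => dj x c' c⟩, Or.inr ⟨hx, c⟩]
  exact (d1.union e1).ne_univ (IsClopen.eq_univ ⟨(d1.union e1).isClosed, this ▸ d2.union e2⟩
    ⟨h 2, Or.inl (d4 ⟨2, ⟨by norm_num, by norm_num⟩, rfl⟩)⟩)

theorem sch : St29.SchStmt := by
  intro h a b ha a1 b1 hi hl
  have c : ContinuousAt (fun ε : ℝ => (16 : ℝ) ^ ε) 0 :=
    Real.continuousAt_const_rpow (by norm_num)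
  have h1 : ∀ᶠ ε in 𝓝[>] (0 : ℝ), (16 : ℝ) ^ ε < min b a⁻¹ := nhdsWithin_le_nhds
    (c.eventually_lt continuousAt_const (by simpa using ⟨b1, (one_lt_inv₀ ha).2 a1⟩))
  obtain ⟨ε, h2, h3⟩ := (h1.and self_mem_nhdsWithin).exists
  obtain ⟨b1, b2, b3⟩ := repar hi (fun z hz => hl z hz.1 hz.2) (ε := ε) (ne_of_gt h3) fun z hz => by
    rw [mem_ofPred_eq, norm_pw _ (an_ne (by norm_num) hz)]
    refine ⟨lt_trans ?_ (Real.rpow_lt_rpow (by norm_num) hz.1 h3),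
      (Real.rpow_lt_rpow (norm_nonneg _) hz.2 h3).trans (h2.trans_le (min_le_left _ _))⟩
    rw [Real.inv_rpow (by norm_num), lt_inv_comm₀ ha (by positivity)]
    exact h2.trans_le (min_le_right _ _)
  exact b3 ▸ fat b1 b2

end Crest.Agent.X212.Sch47
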