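import Crest.Agent.X212.Sch47.Main
import Crest.Agent.X212.Lev39.Tub
import Crest.Agent.X212.Lev39.Fw
import Crest.Agent.X212.Lev39.Fld
import Crest.Agent.X212.Lev39.Ss
import Crest.Agent.X212.Dic6.Fil
import Crest.Agent.X212.Dic6.Main
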